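import Mathlib

/-!
Determinant lower bound for a positive definite block matrix from lower bounds of the
successive distances (block Gram-Schmidt).
-/

open Matrix
open scoped ComplexOrder

namespace Vale.Agent.P272.SZ

variable {n : Type*} [Fintype n] [DecidableEq n]

/-- real part of the quadratic form `v^* S v` -/
noncomputable def qf {m : Type*} [Fintype m] (S : Matrix m m ℂ) (v : m → ℂ) : ℝ :=
  (star v ⬝ᵥ S *ᵥ v).re

/-- squared Euclidean norm -/
noncomputable def nsq {m : Type*} [Fintype m] (v : m → ℂ) : ℝ := ∑ a, ‖v a‖ ^ 2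

lemma nsq_nonneg {m : Type*} [Fintype m] (v : m → ℂ) : 0 ≤ nsq v :=
  Finset.sum_nonneg fun _ _ => by positivity

lemma det_ge {S : Matrix n n ℂ} (hS : S.IsHermitian) {c : ℝ} (hc : 0 ≤ c)
    (h : ∀ v, c * nsq v ≤ qf S v) : c ^ Fintype.card n ≤ S.det.re := by
  have h1 : ∀ i, c ≤ hS.eigenvalues i := by
    intro i
    have h2 := h (hS.eigenvectorBasis i)
    have h3 : nsq (hS.eigenvectorBasis i) = 1 := by
      have := hS.eigenvectorBasis.orthonormal.1 i
      have h4 := EuclideanSpace.norm_sq_eq (hS.eigenvectorBasis i)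
      rw [this] at h4
      rw [nsq, ← h4]; norm_num
    rw [h3, mul_one] at h2
    rw [hS.eigenvalues_eq i]
    exact h2
  rw [hS.det_eq_prod_eigenvalues]
  have h5 : (∏ i, ((hS.eigenvalues i : ℝ) : ℂ)) = ((∏ i, hS.eigenvalues i : ℝ) : ℂ) := by
    push_cast; rfl
  have h6 : (∏ i, (RCLike.ofReal (hS.eigenvalues i) : ℂ)).re = ∏ i, hS.eigenvalues i := by
    have : (∏ i, (RCLike.ofReal (hS.eigenvalues i) : ℂ)) =
      ((∏ i, hS.eigenvalues i : ℝ) : ℂ) := h5
    rw [this, Complex.ofReal_re]
  rw [h6]
  calc c ^ Fintype.card n = ∏ _i : n, c := by simp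
    _ ≤ _ := Finset.prod_le_prod (fun _ _ => hc) fun i _ => h1 i

/-- one block step -/
lemma det_step {m : Type*} [Fintype m] [DecidableEq m] {G : Matrix (m ⊕ n) (m ⊕ n) ℂ}
    (hG : G.PosDef) {c : ℝ} (hc : 0 ≤ c)
    (h : ∀ u : m ⊕ n → ℂ, c * nsq (fun a => u (Sum.inr a)) ≤ qf G u) :
    G.toBlocks₁₁.det.re * c ^ Fintype.card n ≤ G.det.re := by
  set A := G.toBlocks₁₁ with hA
  set B := G.toBlocks₁₂ with hB
  set D := G.toBlocks₂₂ with hD
  have hApd : A.PosDef := hG.submatrix (e := Sum.inl) Sum.inl_injective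
  have hC : G.toBlocks₂₁ = Bᴴ := by
    ext i j
    exact (hG.isHermitian.apply (Sum.inr i) (Sum.inl j)).symm
  have hGf : G = fromBlocks A B Bᴴ D := by
    rw [← hC]; exact (fromBlocks_toBlocks G).symm
  have : Invertible A := hApd.isUnit.invertible
  have hdet : G.det = A.det * (D - Bᴴ * A⁻¹ * B).det := by
    conv_lhs => rw [hGf]
    rw [det_fromBlocks₁₁, invOf_eq_nonsing_inv]
  have hSh : (D - Bᴴ * A⁻¹ * B).IsHermitian := by
    rw [← IsHermitian.fromBlocks₁₁ B D hApd.isHermitian, ← hGf]
    exact hG.isHermitian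
  have hq : ∀ v, c * nsq v ≤ qf (D - Bᴴ * A⁻¹ * B) v := by
    intro v
    have h1 := h (Sum.elim (-((A⁻¹ * B) *ᵥ v)) v)
    have h2 : qf G (Sum.elim (-((A⁻¹ * B) *ᵥ v)) v) = qf (D - Bᴴ * A⁻¹ * B) v := by
      unfold qf
      conv_lhs => rw [hGf]
      rw [dotProduct_mulVec, schur_complement_eq₁₁ B D _ _ hApd.isHermitian, neg_add_cancel,
        dotProduct_zero, zero_add, ← dotProduct_mulVec]
    rw [h2] at h1
    exact h1
  have h3 := det_ge hSh hc hq
  have hA0 : 0 < A.det := hApd.det_pos
  have hA1 : 0 < A.det.re ∧ 0 = A.det.im := by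
    rw [Complex.lt_def] at hA0; exact hA0
  rw [hdet, Complex.mul_re, ← hA1.2, zero_mul, sub_zero]
  exact mul_le_mul_of_nonneg_left h3 hA1.1.le

/-- `n × Fin (K+1) ≃ (n × Fin K) ⊕ n` -/
def blkEquiv (n : Type*) (K : ℕ) : (n × Fin K) ⊕ n ≃ n × Fin (K + 1) where
  toFun := Sum.elim (fun p => (p.1, p.2.castSucc)) (fun a => (a, Fin.last K))
  invFun p := Fin.lastCases (motive := fun _ => (n × Fin K) ⊕ n) (Sum.inr p.1)
    (fun i => Sum.inl (p.1, i)) p.2
  left_inv x := by rcases x with ⟨a, i⟩ | a <;> simp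
  right_inv p := by
    rcases p with ⟨a, i⟩
    induction i using Fin.lastCases <;> simp

theorem block_det : ∀ (K : ℕ) (G : Matrix (n × Fin K) (n × Fin K) ℂ), G.PosDef →
    ∀ c : Fin K → ℝ, (∀ k, 0 ≤ c k) →
    (∀ k, ∀ u : n × Fin K → ℂ, (∀ a j, k < j → u (a, j) = 0) →
      c k * nsq (fun a => u (a, k)) ≤ qf G u) →
    ∏ k, c k ^ Fintype.card n ≤ G.det.re := by
  intro K
  induction K with
  | zero =>
    intro G hG c hc h
    simp
  | succ K ih =>
    intro G hG c hc h
    set e := blkEquiv n K with he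
    set G' : Matrix ((n × Fin K) ⊕ n) ((n × Fin K) ⊕ n) ℂ := G.submatrix e e with hG'
    have hG'pd : G'.PosDef := hG.submatrix e.injective
    have hdet : G'.det = G.det := det_submatrix_equiv_self e G
    have hqf : ∀ u : n × Fin (K + 1) → ℂ, qf G' (u ∘ e) = qf G u := by
      intro u
      unfold qf
      congr 1
      simp only [dotProduct, mulVec, Function.comp_apply, hG', submatrix_apply, Pi.star_apply]
      rw [← e.sum_comp (fun i => star (u i) * ∑ j, G i j * u j)]
      refine Finset.sum_congr rfl fun i _ => ?_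
      rw [← e.sum_comp (fun j => G (e i) j * u j)]
    have hstep := det_step hG'pd (hc (Fin.last K)) (by
      intro u
      have h1 := h (Fin.last K) (u ∘ e.symm) (fun a j hj => absurd hj (not_lt.2 (Fin.le_last j)))
      have h2 : (u ∘ e.symm) ∘ e = u := by funext x; simp
      rw [← hqf, h2] at h1
      have h3 : (fun a => (u ∘ e.symm) (a, Fin.last K)) = fun a => u (Sum.inr a) := by
        funext a
        have : e (Sum.inr a) = (a, Fin.last K) := rfl
        rw [← this]; simp
      rw [h3] at h1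
      exact h1)
    have hih := ih G'.toBlocks₁₁ (hG'pd.submatrix (e := Sum.inl) Sum.inl_injective)
      (fun k => c k.castSucc) (fun k => hc _) (by
        intro k u hu
        -- extend by zero
        set w : n × Fin (K + 1) → ℂ := (Sum.elim u (fun _ => 0)) ∘ e.symm with hw
        have hwe : w ∘ e = Sum.elim u (fun _ => 0) := by funext x; simp [hw]
        have hwc : ∀ a (i : Fin K), w (a, i.castSucc) = u (a, i) := by
          intro a i
          have : e (Sum.inl (a, i)) = (a, i.castSucc) := rfl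
          rw [← this, hw]; simp
        have hwl : ∀ a, w (a, Fin.last K) = 0 := by
          intro a
          have : e (Sum.inr a) = (a, Fin.last K) := rfl
          rw [← this, hw]; simp
        have h1 := h k.castSucc w (by
          intro a j hj
          induction j using Fin.lastCases with
          | last => exact hwl a
          | cast j => rw [hwc]; exact hu a j (by simpa using hj))
        rw [← hqf, hwe] at h1
        have h2 : qf G' (Sum.elim u fun _ => 0) = qf G'.toBlocks₁₁ u := by
          unfold qf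
          congr 1
          simp [dotProduct, mulVec, toBlocks₁₁]
        rw [h2] at h1
        have h3 : (fun a => w (a, k.castSucc)) = fun a => u (a, k) := by
          funext a; exact hwc a k
        rw [h3] at h1
        exact h1)
    rw [Fin.prod_univ_castSucc, ← hdet]
    refine le_trans ?_ hstep
    exact mul_le_mul_of_nonneg_right hih (pow_nonneg (hc _) _)

end Vale.Agent.P272.SZ
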