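import Mathlib

/-!
Trigonometric polynomials on `[0, 2π]`, exact quadrature at roots of unity, approximation.
-/

open Complex MeasureTheory intervalIntegral Filter Topology

namespace Vale.Agent.P272.SZ

/-- `e^{ilt}` -/
noncomputable def ex (l : ℤ) (t : ℝ) : ℂ := Complex.exp ((l : ℂ) * t * I)

lemma ex_add (l k : ℤ) (t : ℝ) : ex (l + k) t = ex l t * ex k t := by
  unfold ex; rw [← Complex.exp_add]; congr 1; push_cast; ring

lemma ex_zero (t : ℝ) : ex 0 t = 1 := by simp [ex]

lemma conj_ex (l : ℤ) (t : ℝ) : (starRingEnd ℂ) (ex l t) = ex (-l) t := by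
  unfold ex
  rw [← Complex.exp_conj]
  congr 1
  simp

lemma continuous_ex (l : ℤ) : Continuous (ex l) := by
  unfold ex; fun_prop

lemma ex_period (l : ℤ) : Function.Periodic (ex l) (2 * Real.pi) := by
  intro t
  unfold ex
  have : (l : ℂ) * ((t + 2 * Real.pi : ℝ) : ℂ) * I = (l : ℂ) * t * I + l * (2 * Real.pi * I) := by
    push_cast; ring
  rw [this, Complex.exp_add, Complex.exp_int_mul_two_pi_mul_I, mul_one]

/-- average over the circle -/
noncomputable def av (f : ℝ → ℂ) : ℂ := (2 * Real.pi)⁻¹ * ∫ t in (0 : ℝ)..(2 * Real.pi), f t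

/-- average over the `M`-th roots of unity -/
noncomputable def dav (M : ℕ) (f : ℝ → ℂ) : ℂ :=
  (M : ℂ)⁻¹ * ∑ j ∈ Finset.range M, f (2 * Real.pi * j / M)

lemma av_ex (l : ℤ) : av (ex l) = if l = 0 then 1 else 0 := by
  unfold av
  split_ifs with h
  · subst h
    have : ∫ t in (0 : ℝ)..(2 * Real.pi), ex 0 t = ((2 * Real.pi : ℝ) : ℂ) := by
      simp [ex_zero]
    rw [this]
    have h2 : (2 * Real.pi : ℂ) ≠ 0 := by
      have := Real.pi_ne_zero
      exact_mod_cast (mul_ne_zero two_ne_zero this)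
    push_cast
    exact inv_mul_cancel₀ h2
  · have hc : (l : ℂ) * I ≠ 0 := mul_ne_zero (by exact_mod_cast h) I_ne_zero
    have h1 : ∫ t in (0 : ℝ)..(2 * Real.pi), ex l t =
        ∫ t in (0 : ℝ)..(2 * Real.pi), Complex.exp ((l : ℂ) * I * t) := by
      refine integral_congr fun t _ => ?_
      simp only [ex]; congr 1; ring
    rw [h1, integral_exp_mul_complex hc]
    have h2 : (l : ℂ) * I * ((2 * Real.pi : ℝ) : ℂ) = l * (2 * Real.pi * I) := by push_cast; ring
    rw [h2, Complex.exp_int_mul_two_pi_mul_I]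
    simp

lemma dav_ex {M : ℕ} {l : ℤ} (hl : |l| < M) : dav M (ex l) = if l = 0 then 1 else 0 := by
  have hM : (0 : ℤ) < M := lt_of_le_of_lt (abs_nonneg l) hl
  have hM0 : (M : ℂ) ≠ 0 := by
    have : M ≠ 0 := by omega
    exact_mod_cast this
  unfold dav
  split_ifs with h
  · subst h
    simp [ex_zero, hM0]
  · set z : ℂ := Complex.exp ((l : ℂ) * (2 * Real.pi * I) / M) with hz
    have h1 : ∀ j : ℕ, ex l (2 * Real.pi * j / M) = z ^ j := by
      intro j
      rw [hz, ← Complex.exp_nat_mul]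
      unfold ex
      congr 1
      push_cast; ring
    have hz1 : z ≠ 1 := by
      intro h2
      rw [hz, Complex.exp_eq_one_iff] at h2
      obtain ⟨k, hk⟩ := h2
      have h3 : (2 * Real.pi * I : ℂ) ≠ 0 := Complex.two_pi_I_ne_zero
      have h4 : (l : ℂ) = k * M := by
        field_simp at hk
        have h5 : (l : ℂ) * (2 * Real.pi * I) = (k * M) * (2 * Real.pi * I) := by
          linear_combination (2 * Real.pi * I) * hk
        exact mul_right_cancel₀ h3 h5
      have h5 : l = k * M := by exact_mod_cast h4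
      have h6 : k = 0 := by
        by_contra hk0
        have h7 : 1 ≤ |k| := Int.one_le_abs hk0
        rw [h5, abs_mul, abs_of_pos hM] at hl
        nlinarith
      rw [h6, zero_mul] at h5
      exact h h5
    have hzM : z ^ M = 1 := by
      rw [hz, ← Complex.exp_nat_mul]
      have : (M : ℂ) * ((l : ℂ) * (2 * Real.pi * I) / M) = l * (2 * Real.pi * I) := by
        field_simp
      rw [this, Complex.exp_int_mul_two_pi_mul_I]
    rw [Finset.sum_congr rfl fun j _ => h1 j, geom_sum_eq hz1, hzM]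
    simp

/-- trigonometric polynomials of degree `≤ d` -/
noncomputable def TP (d : ℕ) : Submodule ℂ (ℝ → ℂ) := Submodule.span ℂ (ex '' {l : ℤ | |l| ≤ d})

lemma ex_mem_TP {l : ℤ} {d : ℕ} (h : |l| ≤ d) : ex l ∈ TP d :=
  Submodule.subset_span ⟨l, h, rfl⟩

lemma TP_mono {d e : ℕ} (h : d ≤ e) : TP d ≤ TP e := by
  refine Submodule.span_mono (Set.image_mono fun l hl => ?_)
  simp only [Set.mem_ofPred_eq] at hl ⊢
  have : (d : ℤ) ≤ e := by exact_mod_cast h
  omega

lemma TP_continuous {d : ℕ} {f : ℝ → ℂ} (hf : f ∈ TP d) : Continuous f := by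
  induction hf using Submodule.span_induction with
  | mem x hx => obtain ⟨l, _, rfl⟩ := hx; exact continuous_ex l
  | zero => exact continuous_const
  | add x y _ _ hx hy => exact hx.add hy
  | smul a x _ hx => exact hx.const_smul a

lemma TP_periodic {d : ℕ} {f : ℝ → ℂ} (hf : f ∈ TP d) : Function.Periodic f (2 * Real.pi) := by
  induction hf using Submodule.span_induction with
  | mem x hx => obtain ⟨l, _, rfl⟩ := hx; exact ex_period l
  | zero => intro t; rfl
  | add x y _ _ hx hy => exact hx.add hy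
  | smul a x _ hx => exact hx.smul a

lemma TP_mul {d e : ℕ} {f g : ℝ → ℂ} (hf : f ∈ TP d) (hg : g ∈ TP e) : f * g ∈ TP (d + e) := by
  have h1 : f * g ∈ Submodule.span ℂ (ex '' {l : ℤ | |l| ≤ d}) *
      Submodule.span ℂ (ex '' {l : ℤ | |l| ≤ e}) := Submodule.mul_mem_mul hf hg
  rw [Submodule.span_mul_span] at h1
  refine Submodule.span_mono ?_ h1
  rintro _ ⟨_, ⟨l, hl, rfl⟩, _, ⟨k, hk, rfl⟩, rfl⟩
  refine ⟨l + k, ?_, ?_⟩
  · simp only [Set.mem_ofPred_eq] at hl hk ⊢
    push_cast
    exact (abs_add_le l k).trans (add_le_add hl hk)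
  · funext t; exact ex_add l k t

lemma TP_conj {d : ℕ} {f : ℝ → ℂ} (hf : f ∈ TP d) : (fun t => (starRingEnd ℂ) (f t)) ∈ TP d := by
  induction hf using Submodule.span_induction with
  | mem x hx =>
    obtain ⟨l, hl, rfl⟩ := hx
    have : (fun t => (starRingEnd ℂ) (ex l t)) = ex (-l) := by funext t; exact conj_ex l t
    rw [this]
    exact ex_mem_TP (by simpa using hl)
  | zero =>
    have : (fun t => (starRingEnd ℂ) ((0 : ℝ → ℂ) t)) = 0 := by funext t; simp
    rw [this]; exact (TP d).zero_mem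
  | add x y _ _ hx hy =>
    have : (fun t => (starRingEnd ℂ) ((x + y) t)) =
        (fun t => (starRingEnd ℂ) (x t)) + fun t => (starRingEnd ℂ) (y t) := by
      funext t; simp
    rw [this]; exact (TP d).add_mem hx hy
  | smul a x _ hx =>
    have : (fun t => (starRingEnd ℂ) ((a • x) t)) =
        (starRingEnd ℂ a) • fun t => (starRingEnd ℂ) (x t) := by
      funext t; simp
    rw [this]; exact (TP d).smul_mem _ hx

lemma TP_const (d : ℕ) (c : ℂ) : (fun _ => c) ∈ TP d := by
  have : (fun _ : ℝ => c) = c • ex 0 := by funext t; simp [ex_zero]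
  rw [this]
  exact (TP d).smul_mem _ (ex_mem_TP (by simp))

/-- trigonometric polynomials with exponents in `[a, b]` -/
noncomputable def TI (a b : ℤ) : Submodule ℂ (ℝ → ℂ) := Submodule.span ℂ (ex '' Set.Icc a b)

lemma ex_mem_TI {l a b : ℤ} (h1 : a ≤ l) (h2 : l ≤ b) : ex l ∈ TI a b :=
  Submodule.subset_span ⟨l, ⟨h1, h2⟩, rfl⟩

lemma TI_mul {a b c d : ℤ} {f g : ℝ → ℂ} (hf : f ∈ TI a b) (hg : g ∈ TI c d) :
    f * g ∈ TI (a + c) (b + d) := by
  have h1 : f * g ∈ Submodule.span ℂ (ex '' Set.Icc a b) *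
      Submodule.span ℂ (ex '' Set.Icc c d) := Submodule.mul_mem_mul hf hg
  rw [Submodule.span_mul_span] at h1
  refine Submodule.span_mono ?_ h1
  rintro _ ⟨_, ⟨l, hl, rfl⟩, _, ⟨k, hk, rfl⟩, rfl⟩
  refine ⟨l + k, ⟨add_le_add hl.1 hk.1, add_le_add hl.2 hk.2⟩, ?_⟩
  funext t; exact ex_add l k t

lemma TI_conj {a b : ℤ} {f : ℝ → ℂ} (hf : f ∈ TI a b) :
    (fun t => (starRingEnd ℂ) (f t)) ∈ TI (-b) (-a) := by
  induction hf using Submodule.span_induction with
  | mem x hx =>
    obtain ⟨l, hl, rfl⟩ := hx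
    have : (fun t => (starRingEnd ℂ) (ex l t)) = ex (-l) := by funext t; exact conj_ex l t
    rw [this]
    exact ex_mem_TI (neg_le_neg hl.2) (neg_le_neg hl.1)
  | zero =>
    have : (fun t => (starRingEnd ℂ) ((0 : ℝ → ℂ) t)) = 0 := by funext t; simp
    rw [this]; exact (TI _ _).zero_mem
  | add x y _ _ hx hy =>
    have : (fun t => (starRingEnd ℂ) ((x + y) t)) =
        (fun t => (starRingEnd ℂ) (x t)) + fun t => (starRingEnd ℂ) (y t) := by
      funext t; simp
    rw [this]; exact (TI _ _).add_mem hx hy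
  | smul c x _ hx =>
    have : (fun t => (starRingEnd ℂ) ((c • x) t)) =
        (starRingEnd ℂ c) • fun t => (starRingEnd ℂ) (x t) := by
      funext t; simp
    rw [this]; exact (TI _ _).smul_mem _ hx

lemma TI_le_TP {a b : ℤ} {d : ℕ} (h1 : -(d : ℤ) ≤ a) (h2 : b ≤ d) : TI a b ≤ TP d := by
  refine Submodule.span_mono (Set.image_mono fun l hl => ?_)
  simp only [Set.mem_ofPred_eq]
  rw [abs_le]
  exact ⟨h1.trans hl.1, hl.2.trans h2⟩

lemma TP_le_TI (d : ℕ) : TP d ≤ TI (-(d : ℤ)) d := by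
  refine Submodule.span_mono (Set.image_mono fun l hl => ?_)
  simp only [Set.mem_ofPred_eq] at hl
  exact abs_le.1 hl

/-- exact quadrature -/
theorem quad {d M : ℕ} (hdM : d < M) {f : ℝ → ℂ} (hf : f ∈ TP d) : dav M f = av f := by
  induction hf using Submodule.span_induction with
  | mem x hx =>
    obtain ⟨l, hl, rfl⟩ := hx
    have : |l| < M := lt_of_le_of_lt hl (by exact_mod_cast hdM)
    rw [dav_ex this, av_ex]
  | zero => simp [dav, av]
  | add x y hx' hy' hx hy =>
    have h1 : dav M (x + y) = dav M x + dav M y := by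
      simp [dav, Finset.sum_add_distrib, mul_add]
    have h2 : av (x + y) = av x + av y := by
      unfold av
      rw [← mul_add, ← integral_add ((TP_continuous hx').intervalIntegrable _ _)
        ((TP_continuous hy').intervalIntegrable _ _)]
      rfl
    rw [h1, h2, hx, hy]
  | smul a x hx' hx =>
    have h1 : dav M (a • x) = a * dav M x := by
      simp only [dav, Pi.smul_apply, smul_eq_mul, ← Finset.mul_sum]; ring
    have h2 : av (a • x) = a * av x := by
      unfold av
      simp only [Pi.smul_apply, smul_eq_mul]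
      rw [intervalIntegral.integral_const_mul]; ring
    rw [h1, h2, hx]

/-- uniform approximation -/
theorem approx {f : ℝ → ℂ} (hf : Continuous f) (hp : Function.Periodic f (2 * Real.pi))
    {ε : ℝ} (hε : 0 < ε) : ∃ d : ℕ, ∃ g ∈ TP d, ∀ t, ‖f t - g t‖ ≤ ε := by
  have : Fact (0 < 2 * Real.pi) := ⟨Real.two_pi_pos⟩
  have hlc : Continuous (hp.lift : AddCircle (2 * Real.pi) → ℂ) := hf.quotient_liftOn' _
  let F : C(AddCircle (2 * Real.pi), ℂ) := ⟨hp.lift, hlc⟩
  have hF : F ∈ (Submodule.span ℂ (Set.range (@fourier (2 * Real.pi)))).topologicalClosure := by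
    rw [span_fourier_closure_eq_top]; trivial
  have hF' : F ∈ closure ((Submodule.span ℂ (Set.range (@fourier (2 * Real.pi))) :
      Submodule ℂ C(AddCircle (2 * Real.pi), ℂ)) : Set C(AddCircle (2 * Real.pi), ℂ)) := hF
  rw [Metric.mem_closure_iff] at hF'
  obtain ⟨g, hg, hgd⟩ := hF' ε hε
  have key : ∀ g ∈ Submodule.span ℂ (Set.range (@fourier (2 * Real.pi))),
      ∃ d, (fun t : ℝ => g (t : AddCircle (2 * Real.pi))) ∈ TP d := by
    intro g hg
    induction hg using Submodule.span_induction with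
    | mem x hx =>
      obtain ⟨l, rfl⟩ := hx
      refine ⟨l.natAbs, ?_⟩
      have : (fun t : ℝ => fourier l (t : AddCircle (2 * Real.pi))) = ex l := by
        funext t
        rw [fourier_coe_apply, ex]
        congr 1
        have h2 : (Real.pi : ℂ) ≠ 0 := by exact_mod_cast Real.pi_ne_zero
        push_cast
        field_simp
      rw [this]
      exact ex_mem_TP (Int.natCast_natAbs l).ge
    | zero => exact ⟨0, (TP 0).zero_mem⟩
    | add x y _ _ hx hy =>
      obtain ⟨d, hd⟩ := hx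
      obtain ⟨e, he⟩ := hy
      exact ⟨max d e, (TP _).add_mem (TP_mono (le_max_left _ _) hd) (TP_mono (le_max_right _ _) he)⟩
    | smul a x _ hx =>
      obtain ⟨d, hd⟩ := hx
      exact ⟨d, (TP d).smul_mem a hd⟩
  obtain ⟨d, hd⟩ := key g hg
  refine ⟨d, _, hd, fun t => ?_⟩
  have h1 : dist (F (t : AddCircle (2 * Real.pi))) (g (t : AddCircle (2 * Real.pi))) ≤ dist F g :=
    ContinuousMap.dist_apply_le_dist _
  rw [dist_eq_norm] at h1
  exact h1.trans hgd.le

lemma norm_av_le {f : ℝ → ℂ} {C : ℝ} (h : ∀ t, ‖f t‖ ≤ C) : ‖av f‖ ≤ C := by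
  unfold av
  rw [norm_mul]
  have h1 := norm_integral_le_of_norm_le_const (a := (0 : ℝ)) (b := 2 * Real.pi) (f := f) (C := C)
    (fun t _ => h t)
  rw [sub_zero, abs_of_pos Real.two_pi_pos] at h1
  have h2 : ‖(((2 * Real.pi)⁻¹ : ℝ) : ℂ)‖ = (2 * Real.pi)⁻¹ := by
    rw [Complex.norm_real, Real.norm_of_nonneg (inv_nonneg.2 Real.two_pi_pos.le)]
  rw [h2]
  have h3 := Real.two_pi_pos
  calc (2 * Real.pi)⁻¹ * ‖∫ t in (0 : ℝ)..(2 * Real.pi), f t‖
      ≤ (2 * Real.pi)⁻¹ * (C * (2 * Real.pi)) := by gcongr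
    _ = C := by field_simp

lemma norm_dav_le {f : ℝ → ℂ} {C : ℝ} (h : ∀ t, ‖f t‖ ≤ C) {M : ℕ} (hM : 0 < M) :
    ‖dav M f‖ ≤ C := by
  unfold dav
  rw [norm_mul, norm_inv, Complex.norm_natCast]
  have h1 : ‖∑ j ∈ Finset.range M, f (2 * Real.pi * j / M)‖ ≤ M * C := by
    refine (norm_sum_le _ _).trans ?_
    calc ∑ j ∈ Finset.range M, ‖f (2 * Real.pi * j / M)‖ ≤ ∑ _j ∈ Finset.range M, C :=
          Finset.sum_le_sum fun j _ => h _
      _ = M * C := by simp
  have hM' : (0 : ℝ) < M := by exact_mod_cast hM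
  calc (M : ℝ)⁻¹ * ‖∑ j ∈ Finset.range M, f (2 * Real.pi * j / M)‖ ≤ (M : ℝ)⁻¹ * (M * C) := by
        gcongr
    _ = C := by field_simp

lemma av_sub {f g : ℝ → ℂ} (hf : Continuous f) (hg : Continuous g) :
    av (fun t => f t - g t) = av f - av g := by
  unfold av
  rw [← mul_sub, ← integral_sub (hf.intervalIntegrable _ _) (hg.intervalIntegrable _ _)]

lemma dav_sub (M : ℕ) (f g : ℝ → ℂ) : dav M (fun t => f t - g t) = dav M f - dav M g := by
  unfold dav; rw [Finset.sum_sub_distrib, mul_sub]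

/-- Riemann sums at roots of unity converge -/
theorem riemann {f : ℝ → ℂ} (hf : Continuous f) (hp : Function.Periodic f (2 * Real.pi)) :
    Tendsto (fun M => dav M f) atTop (𝓝 (av f)) := by
  rw [Metric.tendsto_atTop]
  intro ε hε
  obtain ⟨d, g, hg, hfg⟩ := approx hf hp (show 0 < ε / 3 by positivity)
  refine ⟨d + 1, fun M hM => ?_⟩
  have hM0 : 0 < M := by omega
  have h1 := norm_dav_le hfg hM0
  have h2 := norm_av_le hfg
  rw [dav_sub] at h1
  rw [av_sub hf (TP_continuous hg)] at h2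
  have h3 := quad (show d < M by omega) hg
  rw [dist_eq_norm]
  calc ‖dav M f - av f‖ = ‖(dav M f - dav M g) - (av f - av g)‖ := by rw [h3]; congr 1; ring
    _ ≤ ‖dav M f - dav M g‖ + ‖av f - av g‖ := norm_sub_le _ _
    _ < ε := by linarith

end Vale.Agent.P272.SZ
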