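import Vale.Agent.P272.SZ.Block
import Vale.Agent.P272.SZ.Trig

/-!
The finite inequality behind the matrix Szego theorem (vector polynomials on the roots of unity).
-/

open Matrix Complex Filter Topology
open scoped ComplexOrder

namespace Vale.Agent.P272.SZ

variable {n : Type*} [Fintype n]

/-- quadratic form -/
noncomputable def qc {m : Type*} [Fintype m] (S : Matrix m m ℂ) (v : m → ℂ) : ℂ :=
  star v ⬝ᵥ S *ᵥ v

lemma qf_eq {m : Type*} [Fintype m] (S : Matrix m m ℂ) (v : m → ℂ) : qf S v = (qc S v).re := rfl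

lemma qc_conj {m : Type*} [Fintype m] (E B : Matrix m m ℂ) (u : m → ℂ) :
    qc (Eᴴ * B * E) u = qc B (E *ᵥ u) := by
  unfold qc
  rw [star_mulVec, ← mulVec_mulVec, ← mulVec_mulVec, dotProduct_mulVec]

lemma qc_one {m : Type*} [Fintype m] [DecidableEq m] (v : m → ℂ) : qc 1 v = (nsq v : ℂ) := by
  unfold qc nsq
  rw [one_mulVec, dotProduct]
  push_cast
  refine Finset.sum_congr rfl fun a _ => ?_
  rw [Pi.star_apply, ← Complex.ofReal_pow, ← Complex.normSq_eq_norm_sq, Complex.normSq_eq_conj_mul_self]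
  rfl

lemma qc_blockDiagonal {K : ℕ} (B : Fin K → Matrix n n ℂ) (x : n × Fin K → ℂ) :
    qc (blockDiagonal B) x = ∑ j, qc (B j) (fun a => x (a, j)) := by
  unfold qc
  simp only [dotProduct, mulVec, Fintype.sum_prod_type, Pi.star_apply]
  rw [Finset.sum_comm]
  refine Finset.sum_congr rfl fun j _ => Finset.sum_congr rfl fun a _ => ?_
  congr 1
  refine Finset.sum_congr rfl fun b _ => ?_
  simp [blockDiagonal_apply']

lemma nsq_prod {K : ℕ} (x : n × Fin K → ℂ) : nsq x = ∑ j, nsq (fun a => x (a, j)) := by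
  unfold nsq
  rw [Fintype.sum_prod_type, Finset.sum_comm]

/-- value at `e^{it}` of the vector polynomial with coefficients `c 0, ..., c (K-1)` -/
noncomputable def pv (K : ℕ) (c : ℕ → n → ℂ) (t : ℝ) : n → ℂ :=
  fun a => ∑ l ∈ Finset.range K, c l a * ex l t

omit [Fintype n] in
lemma pv_mem (K : ℕ) (c : ℕ → n → ℂ) (a : n) :
    (fun t => pv (K + 1) c t a) ∈ TI 0 K := by
  have : (fun t => pv (K + 1) c t a) = ∑ l ∈ Finset.range (K + 1), c l a • ex l := by
    funext t; simp [pv, Finset.sum_apply]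
  rw [this]
  refine Submodule.sum_mem _ fun l hl => (TI 0 K).smul_mem _ (ex_mem_TI (by positivity) ?_)
  have := Finset.mem_range.1 hl
  omega

lemma qc_pv_mem {m : ℕ} {P : ℝ → Matrix n n ℂ} (hP : ∀ a b, (fun t => P t a b) ∈ TP m)
    (K : ℕ) (c : ℕ → n → ℂ) : (fun t => qc (P t) (pv (K + 1) c t)) ∈ TP (K + m) := by
  have : (fun t => qc (P t) (pv (K + 1) c t)) = ∑ a, ∑ b,
      (fun t => (starRingEnd ℂ) (pv (K + 1) c t a)) *
        ((fun t => P t a b) * fun t => pv (K + 1) c t b) := by
    funext t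
    simp only [qc, dotProduct, mulVec, Finset.sum_apply, Pi.mul_apply, Pi.star_apply,
      Finset.mul_sum]
    rfl
  rw [this]
  refine Submodule.sum_mem _ fun a _ => Submodule.sum_mem _ fun b _ => ?_
  refine TI_le_TP ?_ ?_ (TI_mul (TI_conj (pv_mem K c a))
    (TI_mul (TP_le_TI m (hP a b)) (pv_mem K c b)))
  · push_cast; omega
  · push_cast; omega

/-- order of the exponents -/
def sg (N i : ℕ) : ℕ := if i ≤ N then N - i else i

lemma sg_inj {N i j : ℕ} (h : sg N i = sg N j) : i = j := by
  unfold sg at h; split_ifs at h <;> omega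

lemma sg_lt {N M i : ℕ} (hN : N < M) (hi : i < M) : sg N i < M := by
  unfold sg; split_ifs <;> omega

section EE

variable [DecidableEq n] (N M : ℕ)

noncomputable def tj (M j : ℕ) : ℝ := 2 * Real.pi * j / M

/-- normalised evaluation matrix -/
noncomputable def EE : Matrix (n × Fin M) (n × Fin M) ℂ :=
  Matrix.of fun p q => if p.1 = q.1 then ((√(M : ℝ) : ℝ) : ℂ)⁻¹ * ex (sg N q.2) (tj M p.2) else 0

/-- the trigonometric vector polynomial of a coefficient vector -/
noncomputable def wv (u : n × Fin M → ℂ) (t : ℝ) : n → ℂ :=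
  fun a => ∑ i : Fin M, u (a, i) * ex (sg N i) t

variable {N M}

lemma EE_mulVec (u : n × Fin M → ℂ) (a : n) (j : Fin M) :
    (EE N M *ᵥ u) (a, j) = ((√(M : ℝ) : ℝ) : ℂ)⁻¹ * wv N M u (tj M j) a := by
  simp only [mulVec, dotProduct, EE, Matrix.of_apply, Fintype.sum_prod_type, wv]
  rw [Finset.sum_eq_single a]
  · rw [Finset.mul_sum]
    refine Finset.sum_congr rfl fun i _ => ?_
    simp; ring
  · intro b _ hb
    refine Finset.sum_eq_zero fun i _ => ?_
    rw [if_neg (Ne.symm hb), zero_mul]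
  · intro h; exact absurd (Finset.mem_univ a) h

lemma EE_unitary (hN : N < M) : (EE (n := n) N M)ᴴ * EE N M = 1 := by
  have hM : (M : ℂ) ≠ 0 := by
    have : M ≠ 0 := by omega
    exact_mod_cast this
  ext ⟨a, i⟩ ⟨b, i'⟩
  rw [mul_apply, Fintype.sum_prod_type, Finset.sum_eq_single a]
  · simp only [conjTranspose_apply, EE, Matrix.of_apply, if_true]
    by_cases hab : a = b
    · subst hab
      simp only [if_true]
      have h1 : ∀ j : Fin M, star (((√(M : ℝ) : ℝ) : ℂ)⁻¹ * ex (sg N i) (tj M j)) *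
          (((√(M : ℝ) : ℝ) : ℂ)⁻¹ * ex (sg N i') (tj M j)) =
          (M : ℂ)⁻¹ * ex ((sg N i' : ℤ) - sg N i) (tj M j) := by
        intro j
        have h2 : ex ((sg N i' : ℤ) - sg N i) (tj M j) =
            (starRingEnd ℂ) (ex (sg N i) (tj M j)) * ex (sg N i') (tj M j) := by
          rw [conj_ex, ← ex_add]; congr 1; ring
        have h3 : (((√(M : ℝ) : ℝ) : ℂ)⁻¹) * ((√(M : ℝ) : ℝ) : ℂ)⁻¹ = (M : ℂ)⁻¹ := by
          rw [← mul_inv, ← Complex.ofReal_mul, Real.mul_self_sqrt (by positivity)]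
          simp
        rw [star_mul', h2, ← h3]
        have h4 : star (((√(M : ℝ) : ℝ) : ℂ)⁻¹) = ((√(M : ℝ) : ℝ) : ℂ)⁻¹ := by
          rw [star_inv₀]; simp
        rw [h4]
        simp only [Complex.star_def]
        ring
      rw [Finset.sum_congr rfl fun j _ => h1 j, ← Finset.mul_sum]
      have h5 : (M : ℂ)⁻¹ * ∑ j : Fin M, ex ((sg N i' : ℤ) - sg N i) (tj M j) =
          dav M (ex ((sg N i' : ℤ) - sg N i)) := by
        unfold dav tj
        rw [Finset.sum_range]
      rw [h5, dav_ex]
      · by_cases hii : i = i'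
        · subst hii; simp
        · have : ¬ ((sg N i' : ℤ) - sg N i = 0) := by
            intro h
            apply hii
            have h6 : sg N i' = sg N i := by omega
            exact Fin.ext (sg_inj h6.symm)
          rw [if_neg this, one_apply_ne]
          intro h
          exact hii (Prod.ext_iff.1 h).2
      · have h6 := sg_lt hN i.2
        have h7 := sg_lt hN i'.2
        rw [abs_lt]; constructor <;> omega
    · rw [one_apply_ne (fun h => hab (Prod.ext_iff.1 h).1)]
      refine Finset.sum_eq_zero fun j _ => ?_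
      rw [if_neg hab, mul_zero]
  · intro c _ hc
    refine Finset.sum_eq_zero fun j _ => ?_
    simp [conjTranspose_apply, EE, hc]
  · intro h; exact absurd (Finset.mem_univ a) h

/-- the Gram matrix -/
noncomputable def GM (N M : ℕ) (P : ℝ → Matrix n n ℂ) : Matrix (n × Fin M) (n × Fin M) ℂ :=
  (EE N M)ᴴ * blockDiagonal (fun j : Fin M => P (tj M j)) * EE N M

lemma qc_GM (hM : 0 < M) (P : ℝ → Matrix n n ℂ) (u : n × Fin M → ℂ) :
    qc (GM N M P) u = dav M (fun t => qc (P t) (wv N M u t)) := by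
  rw [GM, qc_conj, qc_blockDiagonal]
  unfold dav
  rw [Finset.mul_sum, Finset.sum_range]
  refine Finset.sum_congr rfl fun j _ => ?_
  have h1 : (fun a => (EE N M *ᵥ u) (a, j)) =
      ((√(M : ℝ) : ℝ) : ℂ)⁻¹ • wv N M u (tj M j) := by
    funext a; rw [EE_mulVec]; rfl
  rw [h1]
  unfold qc
  rw [star_smul, mulVec_smul, smul_dotProduct, dotProduct_smul, smul_smul, smul_eq_mul]
  congr 1
  rw [star_inv₀]
  have : star (((√(M : ℝ) : ℝ) : ℂ)) = ((√(M : ℝ) : ℝ) : ℂ) := by simp
  rw [this, ← mul_inv, ← Complex.ofReal_mul, Real.mul_self_sqrt (by positivity)]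
  simp

lemma nsq_EE (hN : N < M) (u : n × Fin M → ℂ) : nsq (EE N M *ᵥ u) = nsq u := by
  have h1 : qc ((EE (n := n) N M)ᴴ * 1 * EE N M) u = qc 1 (EE N M *ᵥ u) := qc_conj _ _ _
  rw [Matrix.mul_one, EE_unitary hN, qc_one, qc_one] at h1
  exact_mod_cast h1.symm

omit [Fintype n] [DecidableEq n] in
/-- low exponents: the vector polynomial is `e^{i(N-k)t}` times an analytic one -/
lemma wv_low {k : Fin M} (hk : (k : ℕ) ≤ N) {u : n × Fin M → ℂ}
    (hu : ∀ a j, k < j → u (a, j) = 0) (t : ℝ) :
    wv N M u t = ex ((N : ℤ) - k) t • pv (k + 1)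
      (fun l a => if h : (k : ℕ) - l < M then u (a, ⟨k - l, h⟩) else 0) t := by
  funext a
  simp only [wv, pv, Pi.smul_apply, smul_eq_mul, Finset.mul_sum]
  have h1 : ∑ i : Fin M, u (a, i) * ex (sg N i) t =
      ∑ i ∈ Finset.range M, (if h : i < M then u (a, ⟨i, h⟩) else 0) * ex (sg N i) t := by
    rw [Finset.sum_range]
    refine Finset.sum_congr rfl fun i _ => ?_
    simp
  have h2 : ∑ i ∈ Finset.range M, (if h : i < M then u (a, ⟨i, h⟩) else 0) * ex (sg N i) t =
      ∑ i ∈ Finset.range ((k : ℕ) + 1),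
        (if h : i < M then u (a, ⟨i, h⟩) else 0) * ex (sg N i) t := by
    symm
    refine Finset.sum_subset ?_ ?_
    · intro i hi
      have := Finset.mem_range.1 hi
      have := k.2
      exact Finset.mem_range.2 (by omega)
    · intro i hi hi'
      have h3 := Finset.mem_range.1 hi
      have h4 : ¬ i < (k : ℕ) + 1 := fun h => hi' (Finset.mem_range.2 h)
      rw [dif_pos h3, hu a ⟨i, h3⟩ (by rw [Fin.lt_def]; simp only; omega), zero_mul]
  rw [h1, h2, ← Finset.sum_range_reflect]
  refine Finset.sum_congr rfl fun l hl => ?_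
  have h3 := Finset.mem_range.1 hl
  have h4 : (k : ℕ) + 1 - 1 - l = k - l := by omega
  rw [h4]
  have h5 : ex (sg N ((k : ℕ) - l)) t = ex ((N : ℤ) - k) t * ex l t := by
    rw [← ex_add]
    congr 1
    unfold sg
    rw [if_pos (by omega)]
    omega
  rw [h5]; ring

omit [DecidableEq n] in
lemma qc_smul_ex {S : Matrix n n ℂ} (l : ℤ) (t : ℝ) (v : n → ℂ) :
    qc S (ex l t • v) = qc S v := by
  unfold qc
  rw [star_smul, mulVec_smul, smul_dotProduct, dotProduct_smul, smul_smul]
  have : star (ex l t) * ex l t = 1 := by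
    rw [Complex.star_def, conj_ex, ← ex_add]; simp [ex_zero]
  rw [this, one_smul]

end EE

section core

variable [DecidableEq n]

/-- **finite inequality** -/
theorem core {m : ℕ} {P : ℝ → Matrix n n ℂ} (hP : ∀ a b, (fun t => P t a b) ∈ TP m)
    (hPd : ∀ t, (P t).PosDef) {δ : ℝ} (hδ : 0 < δ) (hδP : ∀ t v, δ * nsq v ≤ qf (P t) v)
    {κ : ℝ} (hκ : 0 < κ)
    (H : ∀ (K : ℕ) (c : ℕ → n → ℂ), κ * nsq (c 0) ≤ (av fun t => qc (P t) (pv (K + 1) c t)).re)
    (N : ℕ) :
    (κ ^ Fintype.card n) ^ (N + 1) * (δ ^ Fintype.card n) ^ m ≤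
      ∏ j ∈ Finset.range (N + 1 + m), (P (tj (N + 1 + m) j)).det.re := by
  set M := N + 1 + m with hM
  have hNM : N < M := by omega
  have hM0 : 0 < M := by omega
  have hE := EE_unitary (n := n) hNM
  have hBpd : (blockDiagonal (fun j : Fin M => P (tj M j))).PosDef := by
    refine PosDef.of_dotProduct_mulVec_pos ?_ ?_
    · rw [IsHermitian, blockDiagonal_conjTranspose]
      congr 1
      funext j
      exact (hPd _).isHermitian
    · intro x hx
      have h1 := qc_blockDiagonal (fun j : Fin M => P (tj M j)) x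
      have h2 : ∃ j : Fin M, (fun a => x (a, j)) ≠ 0 := by
        by_contra h
        push Not at h
        apply hx
        funext ⟨a, j⟩
        exact congrFun (h j) a
      obtain ⟨j₀, hj₀⟩ := h2
      show 0 < qc (blockDiagonal (fun j : Fin M => P (tj M j))) x
      rw [h1]
      refine Finset.sum_pos' (fun j _ => (hPd _).posSemidef.dotProduct_mulVec_nonneg _)
        ⟨j₀, Finset.mem_univ _, (hPd _).dotProduct_mulVec_pos hj₀⟩
  have hEinj : Function.Injective (EE (n := n) N M).mulVec := by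
    intro u v huv
    have h1 : (EE (n := n) N M)ᴴ *ᵥ (EE N M *ᵥ u) = (EE (n := n) N M)ᴴ *ᵥ (EE N M *ᵥ v) := by
      rw [show EE N M *ᵥ u = EE N M *ᵥ v from huv]
    rwa [mulVec_mulVec, mulVec_mulVec, hE, one_mulVec, one_mulVec] at h1
  have hGpd : (GM N M P).PosDef := hBpd.conjTranspose_mul_mul_same hEinj
  have hblk := block_det M (GM N M P) hGpd (fun k => if (k : ℕ) ≤ N then κ else δ)
    (by intro k; split_ifs <;> positivity) (by
      intro k u hu
      by_cases hk : (k : ℕ) ≤ N
      · rw [if_pos hk, qf_eq, qc_GM hM0]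
        set c : ℕ → n → ℂ := fun l a => if h : (k : ℕ) - l < M then u (a, ⟨k - l, h⟩) else 0 with hc
        have h1 : (fun t => qc (P t) (wv N M u t)) = fun t => qc (P t) (pv ((k : ℕ) + 1) c t) := by
          funext t
          rw [wv_low hk hu t, qc_smul_ex]
        rw [h1, quad (d := (k : ℕ) + m) (by omega) (qc_pv_mem hP _ _)]
        have h2 : (fun a => u (a, k)) = c 0 := by
          funext a
          simp [hc]
        rw [h2]
        exact H k c
      · rw [if_neg hk]
        have h1 : qf (GM N M P) u = ∑ j : Fin M, qf (P (tj M j))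
            (fun a => (EE N M *ᵥ u) (a, j)) := by
          rw [qf_eq, GM, qc_conj, qc_blockDiagonal, Complex.re_sum]
          rfl
        rw [h1]
        calc δ * nsq (fun a => u (a, k)) ≤ δ * nsq u := by
              gcongr
              rw [nsq_prod u]
              exact Finset.single_le_sum (f := fun j => nsq fun a => u (a, j))
                (fun j _ => nsq_nonneg _) (Finset.mem_univ k)
          _ = δ * nsq (EE N M *ᵥ u) := by rw [nsq_EE hNM]
          _ = ∑ j : Fin M, δ * nsq (fun a => (EE N M *ᵥ u) (a, j)) := by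
              rw [nsq_prod, Finset.mul_sum]
          _ ≤ _ := Finset.sum_le_sum fun j _ => hδP _ _)
  have hdet : (GM N M P).det = ∏ j : Fin M, (P (tj M j)).det := by
    have h1 : (EE (n := n) N M)ᴴ.det * (EE (n := n) N M).det = 1 := by
      rw [← det_mul, hE, det_one]
    rw [GM, det_mul, det_mul, det_blockDiagonal]
    calc (EE (n := n) N M)ᴴ.det * (∏ j : Fin M, (P (tj M j)).det) * (EE (n := n) N M).det
        = ((EE (n := n) N M)ᴴ.det * (EE (n := n) N M).det) * ∏ j : Fin M, (P (tj M j)).det := by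
          ring
      _ = _ := by rw [h1, one_mul]
  have hre : (∏ j : Fin M, (P (tj M j)).det).re = ∏ j : Fin M, (P (tj M j)).det.re := by
    have h1 : ∀ j : Fin M, (P (tj M j)).det = (((P (tj M j)).det.re : ℝ) : ℂ) := by
      intro j
      have h2 := (hPd (tj M j)).det_pos
      rw [Complex.lt_def] at h2
      exact Complex.ext rfl (by rw [Complex.ofReal_im]; exact h2.2.symm)
    rw [Finset.prod_congr rfl fun j _ => h1 j, ← Complex.ofReal_prod, Complex.ofReal_re]
  rw [hdet, hre] at hblk
  rw [Finset.prod_range (fun j => (P (tj M j)).det.re)]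
  refine le_trans (le_of_eq ?_) hblk
  have h3 : ∏ k : Fin M, (if (k : ℕ) ≤ N then κ else δ) ^ Fintype.card n =
      ∏ k ∈ Finset.range M, (if k ≤ N then κ else δ) ^ Fintype.card n := by
    rw [Finset.prod_range]
  rw [h3, hM, Finset.prod_range_add]
  congr 1
  · rw [Finset.prod_congr rfl (g := fun _ => κ ^ Fintype.card n)]
    · simp
    · intro k hk
      have := Finset.mem_range.1 hk
      rw [if_pos (by omega)]
  · rw [Finset.prod_congr rfl (g := fun _ => δ ^ Fintype.card n)]
    · simp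
    · intro k _
      rw [if_neg (by omega)]

end core

end Vale.Agent.P272.SZ
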