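import Vale.Agent.P272.SZ.Limit

/-!
**Matrix Szego inequality** (the direction used in the extremal disc argument).

If `p(0)^* Q p(0) ≤ lam * avg p^* P p` for every polynomial vector `p`, with `P` a continuous
positive definite symbol on the unit circle and `Q` positive definite, then
`log det Q ≤ n log lam + avg log det P`.
-/

open Matrix Complex Filter Topology MeasureTheory
open scoped ComplexOrder MatrixOrder

namespace Vale.Agent.P272.SZ

variable {n : Type*} [Fintype n] [DecidableEq n]

/-- matrix Szego inequality, coefficient form -/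
theorem szego_coeff {P : ℝ → Matrix n n ℂ} (hPc : Continuous P) (hPd : ∀ t, (P t).PosDef)
    (hPp : Function.Periodic P (2 * Real.pi)) {Q : Matrix n n ℂ} (hQ : Q.PosDef) {lam : ℝ}
    (hlam : 0 < lam)
    (H : ∀ (K : ℕ) (c : ℕ → n → ℂ), qf Q (c 0) ≤ lam * rav fun t => qf (P t) (pv (K + 1) c t)) :
    Real.log Q.det.re ≤ Fintype.card n * Real.log lam + rav fun t => Real.log (P t).det.re := by
  obtain ⟨B, hB⟩ := CStarAlgebra.nonneg_iff_eq_star_mul_self.mp hQ.posSemidef.nonneg
  rw [star_eq_conjTranspose] at hB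
  have hdetQ : Q.det = star B.det * B.det := by rw [hB, det_mul, det_conjTranspose]
  have hBdet : B.det ≠ 0 := by
    intro h
    have := hQ.det_pos
    rw [hdetQ, h, mul_zero] at this
    exact lt_irrefl _ this
  have hBu : IsUnit B.det := isUnit_iff_ne_zero.2 hBdet
  have hBB : B * B⁻¹ = 1 := mul_nonsing_inv B hBu
  set R : ℝ → Matrix n n ℂ := fun t => (B⁻¹)ᴴ * P t * B⁻¹ with hR
  have hRc : Continuous R := (continuous_const.matrix_mul hPc).matrix_mul continuous_const
  have hinj : Function.Injective (B⁻¹).mulVec := by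
    intro u v huv
    have h1 : B *ᵥ (B⁻¹ *ᵥ u) = B *ᵥ (B⁻¹ *ᵥ v) := by
      rw [show B⁻¹ *ᵥ u = B⁻¹ *ᵥ v from huv]
    rwa [mulVec_mulVec, mulVec_mulVec, hBB, one_mulVec, one_mulVec] at h1
  have hRd : ∀ t, (R t).PosDef := fun t => (hPd t).conjTranspose_mul_mul_same hinj
  have hRp : Function.Periodic R (2 * Real.pi) := by
    intro t; simp only [hR]; rw [hPp t]
  have hqR : ∀ t v, qf (R t) v = qf (P t) (B⁻¹ *ᵥ v) := by
    intro t v
    rw [qf_eq, qf_eq, qc_conj]
  have hH' : ∀ (K : ℕ) (c : ℕ → n → ℂ),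
      lam⁻¹ * nsq (c 0) ≤ rav fun t => qf (R t) (pv (K + 1) c t) := by
    intro K c
    have h1 := H K (fun l => B⁻¹ *ᵥ c l)
    have h2 : qf Q (B⁻¹ *ᵥ c 0) = nsq (c 0) := by
      rw [hB]
      have h3 : Bᴴ * B = Bᴴ * 1 * B := by rw [Matrix.mul_one]
      rw [h3, qf_eq, qc_conj, mulVec_mulVec, hBB, one_mulVec, qc_one, Complex.ofReal_re]
    have h4 : (fun t => qf (P t) (pv (K + 1) (fun l => B⁻¹ *ᵥ c l) t)) =
        fun t => qf (R t) (pv (K + 1) c t) := by
      funext t
      rw [hqR]
      congr 1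
      funext a
      simp only [pv, mulVec, dotProduct, Finset.mul_sum, Finset.sum_mul]
      rw [Finset.sum_comm]
      refine Finset.sum_congr rfl fun b _ => Finset.sum_congr rfl fun l _ => ?_
      ring
    rw [h2, h4] at h1
    rw [inv_mul_le_iff₀ hlam]
    exact h1
  have hmain := szego_cont hRc hRd hRp (inv_pos.2 hlam) hH'
  rw [Real.log_inv] at hmain
  have hdetR : ∀ t, Real.log (R t).det.re = Real.log (P t).det.re - Real.log Q.det.re := by
    intro t
    have h1 : (R t).det * Q.det = (P t).det := by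
      have h2 : star (B⁻¹).det * star B.det = 1 := by
        rw [← star_mul', ← det_mul, nonsing_inv_mul B hBu, det_one, star_one]
      have h3 : (B⁻¹).det * B.det = 1 := by
        rw [← det_mul, nonsing_inv_mul B hBu, det_one]
      rw [hR, hdetQ, det_mul, det_mul, det_conjTranspose]
      calc star (B⁻¹).det * (P t).det * (B⁻¹).det * (star B.det * B.det)
          = (star (B⁻¹).det * star B.det) * ((B⁻¹).det * B.det) * (P t).det := by ring
        _ = (P t).det := by rw [h2, h3]; ring
    have h4 : (R t).det.re * Q.det.re = (P t).det.re := by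
      rw [← h1, det_eq_re (hRd t), det_eq_re hQ, ← Complex.ofReal_mul, Complex.ofReal_re,
        Complex.ofReal_re, Complex.ofReal_re]
    rw [← h4, Real.log_mul (det_re_pos (hRd t)).ne' (det_re_pos hQ).ne']
    ring
  have hint : rav (fun t => Real.log (R t).det.re) =
      rav (fun t => Real.log (P t).det.re) - Real.log Q.det.re := by
    have h2pi := Real.two_pi_pos
    have hLc := continuous_logdet hPc hPd
    simp only [hdetR]
    unfold rav
    rw [intervalIntegral.integral_sub (hLc.intervalIntegrable _ _)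
      (continuous_const.intervalIntegrable _ _), intervalIntegral.integral_const, sub_zero,
      smul_eq_mul, mul_sub]
    congr 1
    field_simp
  rw [hint] at hmain
  linarith

/-- the polynomial vector with given coefficients -/
noncomputable def polyv (K : ℕ) (c : ℕ → n → ℂ) (a : n) : Polynomial ℂ :=
  ∑ l ∈ Finset.range K, Polynomial.C (c l a) * Polynomial.X ^ l

omit [Fintype n] [DecidableEq n] in
lemma eval_polyv (K : ℕ) (c : ℕ → n → ℂ) (a : n) (t : ℝ) :
    (polyv K c a).eval (Complex.exp (t * I)) = pv K c t a := by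
  unfold polyv pv
  rw [Polynomial.eval_finsetSum]
  refine Finset.sum_congr rfl fun l _ => ?_
  rw [Polynomial.eval_mul, Polynomial.eval_C, Polynomial.eval_pow, Polynomial.eval_X, ex,
    ← Complex.exp_nat_mul]
  congr 2
  push_cast; ring

omit [Fintype n] [DecidableEq n] in
lemma eval_polyv_zero (K : ℕ) (c : ℕ → n → ℂ) (a : n) :
    (polyv (K + 1) c a).eval 0 = c 0 a := by
  unfold polyv
  rw [Polynomial.eval_finsetSum, Finset.sum_eq_single 0]
  · simp
  · intro l _ hl
    simp [hl]
  · intro h; simp at h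

/-- **Matrix Szego inequality.** `P` is given on the line, `t ↦ P(e^{it})`. -/
theorem matrix_szego {P : ℝ → Matrix n n ℂ} (hPc : Continuous P) (hPd : ∀ t, (P t).PosDef)
    (hPp : ∀ t, P (t + 2 * Real.pi) = P t) {Q : Matrix n n ℂ} (hQ : Q.PosDef) {lam : ℝ}
    (hlam : 0 < lam)
    (H : ∀ p : n → Polynomial ℂ,
      (star (fun a => (p a).eval 0) ⬝ᵥ Q *ᵥ (fun a => (p a).eval 0)).re ≤
      lam * ((2 * Real.pi)⁻¹ * ∫ t in (0 : ℝ)..(2 * Real.pi),
        (star (fun a => (p a).eval (Complex.exp (t * I))) ⬝ᵥ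
          P t *ᵥ (fun a => (p a).eval (Complex.exp (t * I)))).re)) :
    Real.log Q.det.re ≤ Fintype.card n * Real.log lam +
      (2 * Real.pi)⁻¹ * ∫ t in (0 : ℝ)..(2 * Real.pi), Real.log (P t).det.re := by
  refine szego_coeff hPc hPd hPp hQ hlam fun K c => ?_
  have h1 := H (polyv (K + 1) c)
  simp only [eval_polyv, eval_polyv_zero] at h1
  exact h1

/-- **Matrix Szego inequality**, symbol on the circle, average against the Haar probability
measure written as an integral over `[0, 2π]`. -/
theorem matrix_szego_circle {P : Circle → Matrix n n ℂ} (hPc : Continuous P)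
    (hPd : ∀ z, (P z).PosDef) {Q : Matrix n n ℂ} (hQ : Q.PosDef) {lam : ℝ} (hlam : 0 < lam)
    (H : ∀ p : n → Polynomial ℂ,
      (star (fun a => (p a).eval 0) ⬝ᵥ Q *ᵥ (fun a => (p a).eval 0)).re ≤
      lam * ((2 * Real.pi)⁻¹ * ∫ t in (0 : ℝ)..(2 * Real.pi),
        (star (fun a => (p a).eval (Circle.exp t : ℂ)) ⬝ᵥ
          P (Circle.exp t) *ᵥ (fun a => (p a).eval (Circle.exp t : ℂ))).re)) :
    Real.log Q.det.re ≤ Fintype.card n * Real.log lam +
      (2 * Real.pi)⁻¹ * ∫ t in (0 : ℝ)..(2 * Real.pi), Real.log (P (Circle.exp t)).det.re := by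
  refine matrix_szego (P := fun t => P (Circle.exp t)) (hPc.comp Circle.exp.continuous)
    (fun t => hPd _) (fun t => by rw [Circle.exp_add_two_pi]) hQ hlam fun p => ?_
  simpa only [Circle.coe_exp] using H p

/-- **Matrix Szego inequality**, symbol given by a function continuous on the unit circle of `ℂ`. -/
theorem matrix_szego_sphere {P : ℂ → Matrix n n ℂ}
    (hPc : ContinuousOn P (Metric.sphere 0 1)) (hPd : ∀ z, ‖z‖ = 1 → (P z).PosDef)
    {Q : Matrix n n ℂ} (hQ : Q.PosDef) {lam : ℝ} (hlam : 0 < lam)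
    (H : ∀ p : n → Polynomial ℂ,
      (star (fun a => (p a).eval 0) ⬝ᵥ Q *ᵥ (fun a => (p a).eval 0)).re ≤
      lam * ((2 * Real.pi)⁻¹ * ∫ t in (0 : ℝ)..(2 * Real.pi),
        (star (fun a => (p a).eval (Complex.exp (t * I))) ⬝ᵥ
          P (Complex.exp (t * I)) *ᵥ (fun a => (p a).eval (Complex.exp (t * I)))).re)) :
    Real.log Q.det.re ≤ Fintype.card n * Real.log lam +
      (2 * Real.pi)⁻¹ * ∫ t in (0 : ℝ)..(2 * Real.pi),
        Real.log (P (Complex.exp (t * I))).det.re := by
  refine matrix_szego (P := fun t => P (Complex.exp (t * I))) ?_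
    (fun t => hPd _ (Complex.norm_exp_ofReal_mul_I t)) (fun t => ?_) hQ hlam H
  · refine hPc.comp_continuous (by fun_prop) fun t => ?_
    rw [mem_sphere_zero_iff_norm]
    exact Complex.norm_exp_ofReal_mul_I t
  · have : ((t + 2 * Real.pi : ℝ) : ℂ) * I = t * I + 2 * Real.pi * I := by push_cast; ring
    rw [this, Complex.exp_add, Complex.exp_two_pi_mul_I, mul_one]

end Vale.Agent.P272.SZ
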