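import Vale.Agent.P272.SZ.Core

/-!
Limit `N → ∞` of the finite inequality, and passage to continuous symbols.
-/

open Matrix Complex Filter Topology MeasureTheory
open scoped ComplexOrder

namespace Vale.Agent.P272.SZ

variable {n : Type*} [Fintype n] [DecidableEq n]

/-- real average over the circle -/
noncomputable def rav (f : ℝ → ℝ) : ℝ := (2 * Real.pi)⁻¹ * ∫ t in (0 : ℝ)..(2 * Real.pi), f t

lemma av_ofReal (f : ℝ → ℝ) : (av fun t => (f t : ℂ)).re = rav f := by
  unfold av rav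
  rw [intervalIntegral.integral_ofReal, ← Complex.ofReal_mul, Complex.ofReal_re]

lemma rav_mono {f g : ℝ → ℝ} (hf : Continuous f) (hg : Continuous g) (h : ∀ t, f t ≤ g t) :
    rav f ≤ rav g := by
  unfold rav
  have := Real.two_pi_pos
  gcongr
  exact intervalIntegral.integral_mono_on (by positivity) (hf.intervalIntegrable _ _)
    (hg.intervalIntegrable _ _) fun t _ => h t

lemma det_re_pos {A : Matrix n n ℂ} (hA : A.PosDef) : 0 < A.det.re := by
  have h2 := hA.det_pos
  rw [Complex.lt_def] at h2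
  exact h2.1

lemma det_eq_re {A : Matrix n n ℂ} (hA : A.PosDef) : A.det = (A.det.re : ℂ) := by
  have h2 := hA.det_pos
  rw [Complex.lt_def] at h2
  exact Complex.ext rfl (by rw [Complex.ofReal_im]; exact h2.2.symm)

lemma continuous_logdet {P : ℝ → Matrix n n ℂ} (hPc : Continuous P) (hPd : ∀ t, (P t).PosDef) :
    Continuous fun t => Real.log (P t).det.re :=
  (Complex.continuous_re.comp hPc.matrix_det).log fun t => (det_re_pos (hPd t)).ne'

/-- trigonometric symbols -/
theorem szego_trig {m : ℕ} {P : ℝ → Matrix n n ℂ} (hP : ∀ a b, (fun t => P t a b) ∈ TP m)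
    (hPd : ∀ t, (P t).PosDef) {δ : ℝ} (hδ : 0 < δ) (hδP : ∀ t v, δ * nsq v ≤ qf (P t) v)
    {κ : ℝ} (hκ : 0 < κ)
    (H : ∀ (K : ℕ) (c : ℕ → n → ℂ), κ * nsq (c 0) ≤ (av fun t => qc (P t) (pv (K + 1) c t)).re) :
    Fintype.card n * Real.log κ ≤ rav fun t => Real.log (P t).det.re := by
  have hPc : Continuous P := continuous_matrix fun a b => TP_continuous (hP a b)
  set L : ℝ → ℝ := fun t => Real.log (P t).det.re with hL
  have hLc : Continuous L := continuous_logdet hPc hPd
  have hLp : Function.Periodic (fun t => (L t : ℂ)) (2 * Real.pi) := by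
    intro t
    have : P (t + 2 * Real.pi) = P t := by
      ext a b; exact TP_periodic (hP a b) t
    simp only [hL, this]
  have hR := riemann (Complex.continuous_ofReal.comp hLc) hLp
  have hR2 : Tendsto (fun M => (dav M fun t => (L t : ℂ)).re) atTop (𝓝 (rav L)) := by
    rw [← av_ofReal]
    exact (Complex.continuous_re.tendsto _).comp hR
  have hR3 : Tendsto (fun N : ℕ => (dav (N + (1 + m)) fun t => (L t : ℂ)).re) atTop (𝓝 (rav L)) :=
    (tendsto_add_atTop_iff_nat (1 + m)).2 hR2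
  set c : ℝ := (Fintype.card n : ℝ) with hc
  set a : ℝ := c * Real.log κ with ha
  set b : ℝ := c * Real.log δ with hb
  have hineq : ∀ N : ℕ, a + (m * (b - a)) / (N + (1 + m) : ℕ) ≤
      (dav (N + (1 + m)) fun t => (L t : ℂ)).re := by
    intro N
    have h1 := core hP hPd hδ hδP hκ H N
    have hM : N + 1 + m = N + (1 + m) := by ring
    rw [hM] at h1
    have hMpos : (0 : ℝ) < ((N + (1 + m) : ℕ) : ℝ) := by
      have : 0 < N + (1 + m) := by omega
      exact_mod_cast this
    have h2 : (N + 1 : ℕ) * a + m * b ≤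
        ∑ j ∈ Finset.range (N + (1 + m)), L (tj (N + (1 + m)) j) := by
      have h3 := Real.log_le_log (by positivity) h1
      rw [Real.log_mul (by positivity) (by positivity), Real.log_pow, Real.log_pow, Real.log_pow,
        Real.log_pow, Real.log_prod fun j _ => (det_re_pos (hPd _)).ne'] at h3
      exact h3
    have h4 : (dav (N + (1 + m)) fun t => (L t : ℂ)).re =
        ((N + (1 + m) : ℕ) : ℝ)⁻¹ * ∑ j ∈ Finset.range (N + (1 + m)), L (tj (N + (1 + m)) j) := by
      unfold dav tj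
      rw [← Complex.ofReal_sum]
      have : (((N + (1 + m) : ℕ) : ℂ))⁻¹ = (((((N + (1 + m) : ℕ) : ℝ))⁻¹ : ℝ) : ℂ) := by
        push_cast; rfl
      rw [this, ← Complex.ofReal_mul, Complex.ofReal_re]
    rw [h4]
    have h5 : a + (m * (b - a)) / (N + (1 + m) : ℕ) =
        ((N + (1 + m) : ℕ) : ℝ)⁻¹ * ((N + 1 : ℕ) * a + m * b) := by
      field_simp
      push_cast
      ring
    rw [h5]
    exact mul_le_mul_of_nonneg_left h2 (inv_nonneg.2 hMpos.le)
  have hlim : Tendsto (fun N : ℕ => a + (m * (b - a)) / (N + (1 + m) : ℕ)) atTop (𝓝 (a + 0)) := by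
    refine tendsto_const_nhds.add ?_
    have h1 : Tendsto (fun N : ℕ => (m * (b - a)) / (N : ℝ)) atTop (𝓝 0) :=
      tendsto_const_div_atTop_nhds_zero_nat _
    exact (tendsto_add_atTop_iff_nat (f := fun N : ℕ => (m * (b - a)) / (N : ℝ)) (1 + m)).2 h1
  rw [add_zero] at hlim
  exact le_of_tendsto_of_tendsto' hlim hR3 hineq

omit [DecidableEq n] in
/-- `|v^* Y v| ≤ ε card n |v|²` -/
lemma abs_qf_le {Y : Matrix n n ℂ} {ε : ℝ} (hY : ∀ a b, ‖Y a b‖ ≤ ε) (v : n → ℂ) :
    |qf Y v| ≤ ε * Fintype.card n * nsq v := by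
  by_cases hn : IsEmpty n
  · simp [qf, nsq]
  have hε : 0 ≤ ε := by
    rw [not_isEmpty_iff] at hn
    obtain ⟨a⟩ := hn
    exact (norm_nonneg _).trans (hY a a)
  have h1 : |qf Y v| ≤ ‖qc Y v‖ := Complex.abs_re_le_norm _
  refine h1.trans ?_
  have h2 : ‖qc Y v‖ ≤ ∑ a, ∑ b, ‖v a‖ * (ε * ‖v b‖) := by
    unfold qc
    simp only [dotProduct, mulVec]
    refine (norm_sum_le _ _).trans (Finset.sum_le_sum fun a _ => ?_)
    rw [Finset.mul_sum]
    refine (norm_sum_le _ _).trans (Finset.sum_le_sum fun b _ => ?_)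
    rw [norm_mul, norm_mul, Pi.star_apply, norm_star]
    gcongr
    exact hY a b
  have h3 : ∑ a, ∑ b, ‖v a‖ * (ε * ‖v b‖) = ε * (∑ a, ‖v a‖) ^ 2 := by
    rw [sq, Finset.sum_mul_sum, Finset.mul_sum]
    refine Finset.sum_congr rfl fun a _ => ?_
    rw [Finset.mul_sum]
    refine Finset.sum_congr rfl fun b _ => ?_
    ring
  have h4 : (∑ a, ‖v a‖) ^ 2 ≤ Fintype.card n * nsq v := by
    have := sq_sum_le_card_mul_sum_sq (s := (Finset.univ : Finset n)) (f := fun a => ‖v a‖)
    simpa [nsq] using this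
  calc ‖qc Y v‖ ≤ ε * (∑ a, ‖v a‖) ^ 2 := by rw [← h3]; exact h2
    _ ≤ ε * (Fintype.card n * nsq v) := by gcongr
    _ = _ := by ring

omit [DecidableEq n] in
lemma qf_add (A B : Matrix n n ℂ) (v : n → ℂ) : qf (A + B) v = qf A v + qf B v := by
  unfold qf
  rw [add_mulVec, dotProduct_add, Complex.add_re]

omit [DecidableEq n] in
lemma qf_smul_real (A : Matrix n n ℂ) (r : ℝ) (v : n → ℂ) : qf ((r : ℂ) • A) v = r * qf A v := by
  unfold qf
  rw [smul_mulVec, dotProduct_smul, smul_eq_mul, Complex.re_ofReal_mul]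

lemma qf_one (v : n → ℂ) : qf 1 v = nsq v := by
  rw [qf_eq, qc_one, Complex.ofReal_re]

omit [DecidableEq n] in
lemma continuous_qf : Continuous fun p : Matrix n n ℂ × (n → ℂ) => qf p.1 p.2 := by
  unfold qf
  refine Complex.continuous_re.comp ?_
  exact (continuous_snd.star).dotProduct (continuous_fst.matrix_mulVec continuous_snd)

omit [DecidableEq n] in
lemma continuous_nsq : Continuous fun v : n → ℂ => nsq v := by
  unfold nsq
  fun_prop

omit [DecidableEq n] in
lemma nsq_smul (c : ℂ) (v : n → ℂ) : nsq (c • v) = ‖c‖ ^ 2 * nsq v := by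
  unfold nsq
  rw [Finset.mul_sum]
  refine Finset.sum_congr rfl fun a _ => ?_
  simp [mul_pow]

omit [DecidableEq n] in
lemma qf_smul (A : Matrix n n ℂ) (c : ℂ) (v : n → ℂ) : qf A (c • v) = ‖c‖ ^ 2 * qf A v := by
  unfold qf
  rw [star_smul, mulVec_smul, smul_dotProduct, dotProduct_smul, smul_smul, smul_eq_mul]
  have : star c * c = ((‖c‖ ^ 2 : ℝ) : ℂ) := by
    rw [Complex.star_def, ← Complex.normSq_eq_conj_mul_self, Complex.normSq_eq_norm_sq]
  rw [this, Complex.re_ofReal_mul]

omit [DecidableEq n] in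
/-- uniform lower bound of a continuous positive definite symbol on a compact interval -/
lemma exists_lower {P : ℝ → Matrix n n ℂ} (hPc : Continuous P) (hPd : ∀ t, (P t).PosDef)
    (hPp : Function.Periodic P (2 * Real.pi)) :
    ∃ δ > 0, ∀ t v, δ * nsq v ≤ qf (P t) v := by
  set S : Set (ℝ × (n → ℂ)) := Set.Icc 0 (2 * Real.pi) ×ˢ {v | nsq v = 1} with hS
  have hS1 : IsCompact {v : n → ℂ | nsq v = 1} := by
    refine Metric.isCompact_of_isClosed_isBounded (isClosed_eq continuous_nsq continuous_const) ?_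
    refine (Metric.isBounded_closedBall (x := (0 : n → ℂ)) (r := 1)).subset ?_
    intro v hv
    rw [mem_closedBall_zero_iff, pi_norm_le_iff_of_nonneg zero_le_one]
    intro a
    have h1 : ‖v a‖ ^ 2 ≤ nsq v :=
      Finset.single_le_sum (f := fun a => ‖v a‖ ^ 2) (fun _ _ => by positivity)
        (Finset.mem_univ a)
    have h2 : nsq v = 1 := hv
    rw [h2] at h1
    nlinarith [norm_nonneg (v a)]
  have hSc : IsCompact S := isCompact_Icc.prod hS1
  have hred : ∀ δ : ℝ, (∀ p ∈ S, δ ≤ qf (P p.1) p.2) → ∀ t v, δ * nsq v ≤ qf (P t) v := by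
    intro δ h t v
    obtain ⟨s, hs, hPs⟩ := hPp.exists_mem_Ico₀ Real.two_pi_pos t
    rw [hPs]
    by_cases hv : nsq v = 0
    · have hv0 : v = 0 := by
        funext a
        have h1 : ‖v a‖ ^ 2 ≤ nsq v :=
          Finset.single_le_sum (f := fun a => ‖v a‖ ^ 2) (fun _ _ => by positivity)
            (Finset.mem_univ a)
        rw [hv] at h1
        have h2 : ‖v a‖ = 0 := by nlinarith [norm_nonneg (v a)]
        simpa using h2
      rw [hv, hv0]; simp [qf]
    · have hvp : 0 < nsq v := lt_of_le_of_ne (nsq_nonneg v) (Ne.symm hv)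
      set r : ℝ := (√(nsq v))⁻¹ with hr
      have hr2 : r ^ 2 * nsq v = 1 := by
        rw [hr, inv_pow, Real.sq_sqrt hvp.le, inv_mul_cancel₀ hv]
      have hnr : ‖(r : ℂ)‖ ^ 2 = r ^ 2 := by rw [Complex.norm_real, Real.norm_eq_abs, sq_abs]
      have h1 := h (s, (r : ℂ) • v) ⟨⟨hs.1, hs.2.le⟩, by
        show nsq ((r : ℂ) • v) = 1
        rw [nsq_smul, hnr, hr2]⟩
      simp only [qf_smul, hnr] at h1
      have h3 : 0 < r ^ 2 := by positivity
      calc δ * nsq v ≤ (r ^ 2 * qf (P s) v) * nsq v := by gcongr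
        _ = (r ^ 2 * nsq v) * qf (P s) v := by ring
        _ = qf (P s) v := by rw [hr2, one_mul]
  by_cases hSe : S.Nonempty
  · have hcont : ContinuousOn (fun p : ℝ × (n → ℂ) => qf (P p.1) p.2) S :=
      (continuous_qf.comp ((hPc.comp continuous_fst).prodMk continuous_snd)).continuousOn
    obtain ⟨p₀, hp₀, hmin⟩ := hSc.exists_isMinOn hSe hcont
    refine ⟨qf (P p₀.1) p₀.2, ?_, hred _ fun p hp => hmin hp⟩
    refine (hPd p₀.1).re_dotProduct_pos ?_
    intro h0
    have h1 : nsq p₀.2 = 1 := hp₀.2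
    rw [h0] at h1
    simp [nsq] at h1
  · refine ⟨1, one_pos, hred 1 fun p hp => absurd ⟨p, hp⟩ hSe⟩

/-- continuity of `log det` along a compact curve, uniformly under entrywise perturbation -/
lemma logdet_perturb {P : ℝ → Matrix n n ℂ} (hPc : Continuous P) (hPd : ∀ t, (P t).PosDef)
    {η : ℝ} (hη : 0 < η) : ∃ ρ > 0, ∀ P' : ℝ → Matrix n n ℂ,
      (∀ t a b, ‖P t a b - P' t a b‖ ≤ ρ) → ∀ t ∈ Set.Icc (0 : ℝ) (2 * Real.pi),
      |Real.log (P t).det.re - Real.log (P' t).det.re| ≤ η := by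
  set f : (n → n → ℂ) → ℝ := fun A => Real.log (Matrix.det (Matrix.of A)).re with hf
  set K : Set (n → n → ℂ) := (fun t => (P t : n → n → ℂ)) '' Set.Icc 0 (2 * Real.pi) with hK
  have hPc' : Continuous fun t => (P t : n → n → ℂ) := hPc
  have hKc : IsCompact K := isCompact_Icc.image hPc'
  have hfc : ∀ A ∈ K, ContinuousAt f A := by
    rintro _ ⟨t, _, rfl⟩
    refine ContinuousAt.log ?_ (det_re_pos (hPd t)).ne'
    have : Continuous fun A : n → n → ℂ => (Matrix.det (Matrix.of A)).re :=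
      Complex.continuous_re.comp (Continuous.matrix_det continuous_id)
    exact this.continuousAt
  have hu := hKc.uniformContinuousAt_of_continuousAt f hfc (Metric.dist_mem_uniformity hη)
  rw [Metric.mem_uniformity_dist] at hu
  obtain ⟨ρ, hρ, hu⟩ := hu
  refine ⟨ρ / 2, by positivity, fun P' hP' t ht => ?_⟩
  have h1 : dist (fun a b => P t a b) (fun a b => P' t a b) < ρ := by
    refine lt_of_le_of_lt ?_ (show ρ / 2 < ρ by linarith)
    rw [dist_pi_le_iff (by positivity)]
    intro a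
    rw [dist_pi_le_iff (by positivity)]
    intro b
    rw [dist_eq_norm]
    exact hP' t a b
  have h2 : dist (f (fun a b => P t a b)) (f (fun a b => P' t a b)) < η := hu h1 ⟨t, ht, rfl⟩
  rw [Real.dist_eq] at h2
  exact h2.le

omit [DecidableEq n] in
lemma nsq_pos {v : n → ℂ} (hv : v ≠ 0) : 0 < nsq v := by
  refine lt_of_le_of_ne (nsq_nonneg v) fun h => hv ?_
  funext a
  have h1 : ‖v a‖ ^ 2 ≤ nsq v :=
    Finset.single_le_sum (f := fun a => ‖v a‖ ^ 2) (fun _ _ => by positivity)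
      (Finset.mem_univ a)
  rw [← h] at h1
  have h2 : ‖v a‖ = 0 := by nlinarith [norm_nonneg (v a)]
  simpa using h2

omit [DecidableEq n] in
lemma qc_eq_qf {A : Matrix n n ℂ} (hA : A.IsHermitian) (v : n → ℂ) : qc A v = (qf A v : ℂ) := by
  have h3 : (qc A v).im = 0 := hA.im_star_dotProduct_mulVec_self v
  exact Complex.ext rfl (by rw [Complex.ofReal_im]; exact h3)

omit [DecidableEq n] in
lemma posDef_of_lower {A : Matrix n n ℂ} (hA : A.IsHermitian) {δ : ℝ} (hδ : 0 < δ)
    (h : ∀ v, δ * nsq v ≤ qf A v) : A.PosDef := by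
  refine PosDef.of_dotProduct_mulVec_pos hA fun v hv => ?_
  have h1 := nsq_pos hv
  have h2 : 0 < qf A v := lt_of_lt_of_le (by positivity) (h v)
  have h3 := qc_eq_qf hA v
  show 0 < qc A v
  rw [h3]
  exact_mod_cast h2

/-- trigonometric majorant of a continuous Hermitian symbol -/
lemma exists_trig {P : ℝ → Matrix n n ℂ} (hPc : Continuous P) (hPh : ∀ t, (P t).IsHermitian)
    (hPp : Function.Periodic P (2 * Real.pi)) {ρ : ℝ} (hρ : 0 < ρ) :
    ∃ (m : ℕ) (P' : ℝ → Matrix n n ℂ), (∀ a b, (fun t => P' t a b) ∈ TP m) ∧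
      (∀ t, (P' t).IsHermitian) ∧ (∀ t v, qf (P t) v ≤ qf (P' t) v) ∧
      ∀ t a b, ‖P t a b - P' t a b‖ ≤ ρ := by
  obtain ⟨q, hq⟩ : ∃ q : ℝ, q = (Fintype.card n : ℝ) := ⟨_, rfl⟩
  have hq0 : 0 ≤ q := by rw [hq]; positivity
  obtain ⟨ε, hε⟩ : ∃ ε : ℝ, ε = ρ / (1 + q) := ⟨_, rfl⟩
  have hε0 : 0 < ε := by rw [hε]; positivity
  have hεq : ε + ε * q = ρ := by rw [hε]; field_simp
  -- approximate the entries
  have happ : ∀ a b, ∃ d : ℕ, ∃ g ∈ TP d, ∀ t, ‖P t a b - g t‖ ≤ ε := fun a b =>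
    approx ((continuous_apply_apply a b).comp hPc)
      (fun t => by show P (t + 2 * Real.pi) a b = P t a b; rw [hPp t]) hε0
  choose d g hg hPg using happ
  obtain ⟨m, hm⟩ : ∃ m : ℕ, m = Finset.univ.sup fun p : n × n => d p.1 p.2 := ⟨_, rfl⟩
  have hdm : ∀ a b, d a b ≤ m := fun a b => by
    rw [hm]
    exact Finset.le_sup (f := fun p : n × n => d p.1 p.2) (Finset.mem_univ (a, b))
  have hg' : ∀ a b, g a b ∈ TP m := fun a b => TP_mono (hdm a b) (hg a b)
  obtain ⟨T, hT⟩ : ∃ T : ℝ → Matrix n n ℂ, ∀ t a b, T t a b =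
    (1 / 2 : ℂ) * (g a b t + (starRingEnd ℂ) (g b a t)) := ⟨fun t => Matrix.of fun a b =>
    (1 / 2 : ℂ) * (g a b t + (starRingEnd ℂ) (g b a t)), fun t a b => rfl⟩
  have hTerm : ∀ t, (T t).IsHermitian := by
    intro t
    ext a b
    rw [conjTranspose_apply, hT, hT]
    simp only [Complex.star_def, map_mul, map_add, Complex.conj_conj]
    have : (starRingEnd ℂ) (1 / 2 : ℂ) = 1 / 2 := by
      rw [map_div₀, map_one, Complex.conj_ofNat]
    rw [this, add_comm]
  have hTP : ∀ t a b, ‖T t a b - P t a b‖ ≤ ε := by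
    intro t a b
    have h1 : (starRingEnd ℂ) (P t b a) = P t a b := (hPh t).apply a b
    have h2 : T t a b - P t a b = (1 / 2 : ℂ) * ((g a b t - P t a b) +
        (starRingEnd ℂ) (g b a t - P t b a)) := by
      rw [hT, map_sub, h1]; ring
    have h3 : ‖g a b t - P t a b‖ ≤ ε := by rw [norm_sub_rev]; exact hPg a b t
    have h4 : ‖(starRingEnd ℂ) (g b a t - P t b a)‖ ≤ ε := by
      rw [RCLike.norm_conj, norm_sub_rev]; exact hPg b a t
    rw [h2, norm_mul]
    have h5 : ‖(1 / 2 : ℂ)‖ = 1 / 2 := by simp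
    rw [h5]
    have h6 := norm_add_le (g a b t - P t a b) ((starRingEnd ℂ) (g b a t - P t b a))
    linarith
  refine ⟨m, fun t => T t + ((ε * q : ℝ) : ℂ) • 1, ?_, ?_, ?_, ?_⟩
  · intro a b
    have h1 : (fun t => (T t + ((ε * q : ℝ) : ℂ) • (1 : Matrix n n ℂ)) a b) =
        (1 / 2 : ℂ) • (g a b + fun t => (starRingEnd ℂ) (g b a t)) +
        fun _ => (((ε * q : ℝ) : ℂ) • (1 : Matrix n n ℂ)) a b := by
      funext t
      rw [Matrix.add_apply, hT]
      rfl
    rw [h1]
    exact (TP m).add_mem ((TP m).smul_mem _ ((TP m).add_mem (hg' a b) (TP_conj (hg' b a))))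
      (TP_const m _)
  · intro t
    refine (hTerm t).add ?_
    rw [IsHermitian, conjTranspose_smul, conjTranspose_one]
    simp
  · intro t v
    have h1 : T t + ((ε * q : ℝ) : ℂ) • (1 : Matrix n n ℂ) =
        P t + (T t - P t) + ((ε * q : ℝ) : ℂ) • (1 : Matrix n n ℂ) := by abel
    show qf (P t) v ≤ qf (T t + ((ε * q : ℝ) : ℂ) • (1 : Matrix n n ℂ)) v
    rw [h1, qf_add, qf_add, qf_smul_real, qf_one]
    have h2 := abs_qf_le (Y := T t - P t) (ε := ε) (fun a b => hTP t a b) v
    rw [← hq] at h2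
    have h3 := (abs_le.1 h2).1
    linarith
  · intro t a b
    have h1 : P t a b - (T t + ((ε * q : ℝ) : ℂ) • (1 : Matrix n n ℂ)) a b =
        -((T t a b - P t a b) + (((ε * q : ℝ) : ℂ) • (1 : Matrix n n ℂ)) a b) := by
      rw [Matrix.add_apply]; ring
    rw [h1, norm_neg]
    refine (norm_add_le _ _).trans ?_
    rw [← hεq]
    refine add_le_add (hTP t a b) ?_
    rw [Matrix.smul_apply, smul_eq_mul, norm_mul, Complex.norm_real, Real.norm_of_nonneg (by positivity)]
    have h2 : ‖(1 : Matrix n n ℂ) a b‖ ≤ 1 := by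
      rw [one_apply]; split_ifs <;> simp
    calc ε * q * ‖(1 : Matrix n n ℂ) a b‖ ≤ ε * q * 1 := by gcongr
      _ = ε * q := by ring

omit [Fintype n] [DecidableEq n] in
lemma continuous_pv (K : ℕ) (c : ℕ → n → ℂ) : Continuous fun t => pv K c t := by
  refine continuous_pi fun a => ?_
  unfold pv
  exact continuous_finsetSum _ fun l _ => continuous_const.mul (continuous_ex l)

omit [DecidableEq n] in
lemma continuous_qf_pv {P : ℝ → Matrix n n ℂ} (hP : Continuous P) (K : ℕ) (c : ℕ → n → ℂ) :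
    Continuous fun t => qf (P t) (pv K c t) :=
  continuous_qf.comp (hP.prodMk (continuous_pv K c))

/-- continuous symbols, normalised at the origin -/
theorem szego_cont {P : ℝ → Matrix n n ℂ} (hPc : Continuous P) (hPd : ∀ t, (P t).PosDef)
    (hPp : Function.Periodic P (2 * Real.pi)) {κ : ℝ} (hκ : 0 < κ)
    (H : ∀ (K : ℕ) (c : ℕ → n → ℂ), κ * nsq (c 0) ≤ rav fun t => qf (P t) (pv (K + 1) c t)) :
    Fintype.card n * Real.log κ ≤ rav fun t => Real.log (P t).det.re := by
  obtain ⟨δ, hδ, hδP⟩ := exists_lower hPc hPd hPp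
  refine le_of_forall_pos_le_add fun η hη => ?_
  obtain ⟨ρ, hρ, hpert⟩ := logdet_perturb hPc hPd hη
  obtain ⟨m, P', hP'm, hP'h, hge, hdiff⟩ := exists_trig hPc (fun t => (hPd t).isHermitian) hPp hρ
  have hP'c : Continuous P' := continuous_matrix fun a b => TP_continuous (hP'm a b)
  have hδP' : ∀ t v, δ * nsq v ≤ qf (P' t) v := fun t v => (hδP t v).trans (hge t v)
  have hP'd : ∀ t, (P' t).PosDef := fun t => posDef_of_lower (hP'h t) hδ (hδP' t)
  have hH' : ∀ (K : ℕ) (c : ℕ → n → ℂ),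
      κ * nsq (c 0) ≤ (av fun t => qc (P' t) (pv (K + 1) c t)).re := by
    intro K c
    have h1 : (fun t => qc (P' t) (pv (K + 1) c t)) =
        fun t => ((qf (P' t) (pv (K + 1) c t) : ℝ) : ℂ) := by
      funext t
      exact qc_eq_qf (hP'h t) _
    rw [h1, av_ofReal]
    exact (H K c).trans (rav_mono (continuous_qf_pv hPc (K + 1) c)
      (continuous_qf_pv hP'c (K + 1) c) fun t => hge t _)
  have hmain := szego_trig hP'm hP'd hδ hδP' hκ hH'
  have hlog := hpert P' hdiff
  refine hmain.trans ?_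
  have hLc := continuous_logdet hPc hPd
  have hLc' := continuous_logdet hP'c hP'd
  have h2pi := Real.two_pi_pos
  calc rav (fun t => Real.log (P' t).det.re)
      ≤ rav (fun t => Real.log (P t).det.re + η) := by
        unfold rav
        gcongr
        refine intervalIntegral.integral_mono_on h2pi.le (hLc'.intervalIntegrable _ _)
          ((hLc.add continuous_const).intervalIntegrable _ _) fun t ht => ?_
        have := (abs_le.1 (hlog t ht)).1
        linarith
    _ = rav (fun t => Real.log (P t).det.re) + η := by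
        unfold rav
        rw [intervalIntegral.integral_add (hLc.intervalIntegrable _ _)
          (continuous_const.intervalIntegrable _ _), intervalIntegral.integral_const, sub_zero,
          smul_eq_mul, mul_add]
        congr 1
        field_simp

end Vale.Agent.P272.SZ
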